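import Vale.Agent.P257EJ.BP
import Vale.Agent.P221CY.StBr

/-!
# The homotopy of the Brown-Peterson spectrum, in the statement layer of P221
-/

namespace Vale.Agent.P221EJ

open Vale.Agent.P251.St Vale.Agent.P251.St.SHCat Vale.Agent.P251CY

/-- **`π_* BP = ℤ_(p)[v_1, v_2, …]`**. -/
theorem coef {T : SHCat} {S : Susp T} {p : ℕ} (hp : p.Prime) (B : P251CY.RingSp T)
    (o : P251CY.Oriented S B) (φ : P251CY.GHom S p B) (h : P251CY.IsBrownPeterson p o φ) :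
    (∀ (k : ℤ) (f : P251CY.Pi k B.obj), Odd k ∨ k < 0 → f = P251CY.nul _ _) ∧
    (∀ (k : ℕ) (y : P251CY.PiR S B k), ∃ (m : ℤ) (x : P251CY.VPoly p k), ¬ (p : ℤ) ∣ m ∧
      P251CY.zmul m y = φ.val x) ∧
    ∀ (k : ℕ) (x : P251CY.VPoly p k), φ.val x = P251CY.nul _ _ → x.pol = 0 := by
  have : Fact p.Prime := ⟨hp⟩
  obtain ⟨h1, h2, h3⟩ := P257EJ.coef ((P251CY.isBrownPeterson_iff _ _).1 h)
  exact ⟨h1, h2, fun k x hx => congrArg Subtype.val (h3 k x hx)⟩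

end Vale.Agent.P221EJ
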