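import Vale.Agent.P221EJ.St
import Vale.Agent.P221CY.StBr
import Vale.Agent.P251.X.KExists
import Vale.Agent.P251Z.JWAlg
import Vale.Agent.P251EJ70.Asm
import Vale.Agent.P257.H702.HasV
import Vale.Agent.P251.St.OfChrom

/-!
# The Morava `K`-theories exist
-/

open CategoryTheory MonoidalCategory Limits Pretriangulated MonObj

set_option linter.unusedSectionVars false

noncomputable section

namespace Vale.Agent.P221EJ

open Vale.Agent.P251 Vale.Agent.P251.I Vale.Agent.P251.T Vale.Agent.P251.M Vale.Agent.P251.St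
  Vale.Agent.P251.F Vale.Agent.P257.H702 Vale.Agent.P257.H80
open Vale.Agent.P251.M.EvenSpheres

/-- a uniquely divisible group of rank one is `ℚ` -/
theorem equivRat {A : Type} [AddCommGroup A] {e : A} (he : e ≠ 0)
    (hd : ∀ m : ℤ, m ≠ 0 → Function.Bijective fun f : A => m • f)
    (hg : ∀ f : A, ∃ a m : ℤ, m ≠ 0 ∧ m • f = a • e) : Nonempty (A ≃+ ℚ) := by
  let g : ℤ →ₗ[ℤ] A := LinearMap.toSpanSingleton ℤ A e
  have hl : IsLocalizedModule (nonZeroDivisors ℤ) g := by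
    refine ⟨fun m => ?_, fun y => ?_, fun {a b} h => ?_⟩
    · rw [Module.End.isUnit_iff]
      exact hd m (nonZeroDivisors.coe_ne_zero m)
    · obtain ⟨a, m, hm, h⟩ := hg y
      exact ⟨(a, ⟨m, mem_nonZeroDivisors_of_ne_zero hm⟩), h⟩
    · refine ⟨1, ?_⟩
      by_contra hab
      have h1 : (a - b) • e = (a - b) • (0 : A) := by
        rw [sub_smul, smul_zero, sub_eq_zero]
        exact h
      exact he ((hd _ (sub_ne_zero.2 fun h2 => hab (by rw [h2]))).1 h1)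
  exact ⟨(IsLocalizedModule.linearEquiv (nonZeroDivisors ℤ) g
    (Algebra.linearMap ℤ ℚ)).toAddEquiv⟩

/-- a cyclic group killed by `p` has `p` elements -/
theorem card_eq {A : Type} [AddCommGroup A] {p : ℕ} [hp : Fact p.Prime] {e : A} (he : e ≠ 0)
    (hc : (p : ℤ) • e = 0) (hg : ∀ f : A, ∃ a : ℤ, f = a • e) : Nat.card A = p := by
  have h1 : addOrderOf e = p := addOrderOf_eq_prime (by rw [← natCast_zsmul, hc]) he
  rw [← h1, ← Nat.card_zmultiples]
  refine Nat.card_congr (Equiv.ofBijective (fun x : AddSubgroup.zmultiples e => (x : A))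
    ⟨Subtype.val_injective, fun f => ?_⟩).symm
  obtain ⟨a, rfl⟩ := hg f
  exact ⟨⟨a • e, a, rfl⟩, rfl⟩

variable {T : SHCat} {S : Susp T} {p : ℕ}

/-- `π_0 X` is the group of maps from the unit -/
def piZero (X : T.C) : ((𝟙_ T.C)⟦(0 : ℤ)⟧ ⟶ X) ≃+ (𝟙_ T.C ⟶ X) where
  toFun f := (shiftFunctorZero T.C ℤ).inv.app (𝟙_ T.C) ≫ f
  invFun f := (shiftFunctorZero T.C ℤ).hom.app (𝟙_ T.C) ≫ f
  left_inv f := by simp
  right_inv f := by simp
  map_add' f g := by simp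

theorem smul_id {K : T.C} [MonObj K] (m : ℤ) :
    m • 𝟙 K = (ρ_ K).inv ≫ K ◁ (m • η[K]) ≫ μ[K] := by
  have h1 : K ◁ (m • η[K]) = m • K ◁ η[K] := (tensorLeft K).map_zsmul
  rw [h1, Preadditive.zsmul_comp, MonObj.mul_one, Preadditive.comp_zsmul, Iso.inv_hom_id]

theorem isIso_of_pow (hp : p.Prime) {X : T.C} {k : ℕ} (h : ((p : ℤ) ^ k) • 𝟙 X = 0) (m : ℤ)
    (hm : ¬ (p : ℤ) ∣ m) : IsIso (m • 𝟙 X) := by
  have h1 : IsCoprime m ((p : ℤ) ^ k) :=
    (((Nat.prime_iff_prime_int.mp hp).coprime_iff_not_dvd.2 hm).symm).pow_right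
  obtain ⟨a, b, hab⟩ := h1
  have h2 : (a * m) • 𝟙 X = 𝟙 X := by
    have h3 : (a * m + b * (p : ℤ) ^ k) • 𝟙 X = 𝟙 X := by rw [hab, one_smul]
    rwa [add_smul, mul_smul b, h, smul_zero, add_zero] at h3
  refine ⟨a • 𝟙 X, ?_, ?_⟩
  · rw [Preadditive.zsmul_comp, Category.id_comp, smul_smul, mul_comm, h2]
  · rw [Preadditive.zsmul_comp, Category.id_comp, smul_smul, h2]

/-- multiplication by a unit is an isomorphism -/
theorem isIso_of_isUnit {K : T.C} [MonObj K] [IsCommMonObj K] {N : ℕ}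
    (v : S.obj (St.Cn N) ⟶ K)
    (h : IsUnit (HRing.of (stdEven T.C) K N ((isoE S N).inv ≫ v))) : IsIso (K ◁ v ≫ μ[K]) := by
  obtain ⟨a, ha⟩ := X.exists_gmul_inv _ h.exists_left_inv
  refine St.isIso_actV (N := S.obj (St.Cn N)) (St.braiding_SC S.toSpaceFunctor N)
    ((stdEven T.C).zero.hom ≫ ((stdEven T.C).mu _ _ _ (neg_add_cancel (N : ℤ))).inv ≫
      a ▷ _ ≫ K ◁ (isoE S N).inv) v ?_
  rw [gmul, EvenSpheres.ext, MonoidalCategory.tensorHom_def, MonoidalCategory.whiskerLeft_comp] at ha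
  simp only [Category.assoc] at ha ⊢
  rw [ha, Iso.hom_inv_id_assoc]

theorem exists_isK_zero (S : Susp T) (p : ℕ) : ∃ K, IsK S p 0 K := by
  have := CategoryTheory.locallySmall_self.{0} T.C
  obtain ⟨K, i1, i2, h0, h1, h2, h3⟩ := X.exists_HQ S.toSpaceFunctor
  refine ⟨@P251CY.RingSp.mk T K i1 i2, fun k hk => ?_, ?_⟩
  · exact subsingleton_of_forall_eq 0 (h0 k fun e => hk (by rw [e]; exact dvd_zero _))
  · rw [if_pos rfl]
    obtain ⟨e⟩ := equivRat h1 h2 h3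
    exact ⟨(piZero K).trans e⟩

theorem exists_isK_succ (S : Susp T) [hp : Fact p.Prime] (h2 : p ≠ 2) (n : ℕ) :
    ∃ K, IsK S p (n + 1) K := by
  have := CategoryTheory.locallySmall_self.{0} T.C
  obtain ⟨D, hD, -, ⟨U⟩⟩ := P251EJ70.exists_mu S.toSpaceFunctor (M.lineIso S.toSpaceFunctor)
  obtain ⟨Q⟩ := X.exists_KD hD h2 n.succ_ne_zero
  have hc : ((p : ℤ) ^ 1) • 𝟙 Q.K = 0 := by
    rw [pow_one, smul_id, Q.char, MonoidalPreadditive.whiskerLeft_zero, zero_comp, comp_zero]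
  have hK : LocO p Q.K := isIso_of_pow hp.out hc
  let R : RingSp T := ⟨Q.K⟩
  obtain ⟨o, ho⟩ := U.exists_orient (R := R) (typM hD hK Q.φ)
  have hl := lawOf_typM hD hK Q.φ
  obtain ⟨φ, hφ, hΦ⟩ := exists_isPTyp (R := R) (o := o) hK (hom_homog hK hl)
    (by rw [U.lawS_eq ho]; exact hl)
  have hI : Ih p (n + 1) (lawOf Q.φ) = ⊥ := by
    rw [Ih, Ideal.span_eq_bot]
    rintro _ ⟨i, hi, rfl⟩
    exact Q.vv_lt i hi
  have hu := isUnit_vv_smul p (n + 1) 1 (lawOf Q.φ) (ser Q.φ (typM hD hK Q.φ))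
    (by rw [pow_one, hI]) Q.vv_unit
  have hI' := Ih_smul p (n + 1) (lawOf Q.φ) (ser Q.φ (typM hD hK Q.φ))
  rw [ser_smul, hl] at hu hI'
  have h3 := P251Z.vv_haz_sub (p := p) (vS p (typ p (pLoc_of_locO hK) (lawOf Q.φ))) (n + 1)
  rw [hI', hI, Ideal.mem_bot, sub_eq_zero] at h3
  rw [h3] at hu
  refine ⟨P251CY.RingSp.ofOld R, fun k hk => subsingleton_of_forall_eq 0 fun f => ?_, ?_⟩
  · rcases Int.even_or_odd' k with ⟨m, rfl | rfl⟩
    · rw [← cancel_epi ((stdEven T.C).sphIso (Iso.refl _) m).hom, comp_zero]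
      exact Q.sparse m (fun hd => hk (mul_dvd_mul_left 2 (by exact_mod_cast hd))) _
    · exact Q.odd m f
  · rw [if_neg n.succ_ne_zero]
    refine ⟨(Nat.card_congr (piZero Q.K).toEquiv).trans (card_eq Q.ne Q.char Q.gen),
      P251CY.Oriented.ofOld (R := P251CY.RingSp.ofOld R) o,
      P251CY.GHom.ofOld (R := P251CY.RingSp.ofOld R) φ, (P251CY.isPTyp_iff _ _).2 hφ,
      fun d w hw => ?_⟩
    refine isIso_of_isUnit (K := Q.K) (φ d w) ?_
    have hw' : (w : MvPolynomial ℕ ℤ) = MvPolynomial.X n := hw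
    rw [← hΦ d w, hw']
    exact hu

/-- **The Morava `K`-theories exist** at odd primes. -/
theorem exists_isK (S : Susp T) (hp : p.Prime) (h2 : p ≠ 2) (j : ℕ) : ∃ K, IsK S p j K := by
  have : Fact p.Prime := ⟨hp⟩
  rcases j with _ | n
  · exact exists_isK_zero S p
  · exact exists_isK_succ S h2 n

end Vale.Agent.P221EJ
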