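import Vale.Agent.P221CY.BP
import Mathlib.CategoryTheory.Monoidal.Mod
import Mathlib.CategoryTheory.Triangulated.Generators

/-!
# P221, statement layer: standard forms of `BP⟨n⟩`, Morava `K`-theories, types, fp-spectra

The standard forms are those of `P221CY/St.lean`; the type of a finite spectrum is defined by the
Morava `K`-theories.
-/

open CategoryTheory

noncomputable section

namespace Vale.Agent.P221EJ

open Vale.Agent.P251.St (SHCat Susp)
open Vale.Agent.P251.St.SHCat Vale.Agent.P251CY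
open scoped MonoidalCategory.MonoidalLeftAction

variable {T : SHCat}

/-- `π_k X` -/
abbrev Pi (k : ℤ) (X : T.C) : Type := Hom (sphere T k) X

/-- `X` is `p`-complete: there are no nonzero maps `W ⟶ X` if `p` is invertible on `W`. -/
def PComplete (p : ℕ) (X : T.C) : Prop :=
  ∀ W : T.C, IsIso (zmul p (ident W)) → Subsingleton (Hom W X)

/-- `c : X ⟶ Y` is the `p`-completion of `X`. -/
def IsPCompletion (p : ℕ) {X Y : T.C} (c : Hom X Y) : Prop :=
  PComplete p Y ∧ ∀ Z : T.C, PComplete p Z → ∀ f : Hom X Z, ∃! g : Hom Y Z, comp c g = f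

variable {R : RingSp T} {S : Susp T} {p : ℕ}

/-- `x ∈ π_{2d} R` is a polynomial generator in the place of `v_{j+1}` (the variable `X j`): up to a
factor prime to `p` it is the value of a homogeneous polynomial `w ∈ ℤ[v_1, v_2, …]` in which the
coefficient of `v_{j+1}` is prime to `p` (so `d = p^{j+1} - 1`). For `R = BP`, where
`π_* R = ℤ_(p)[v_1, v_2, …]`, this means that `x` is the product of a unit with `v_{j+1}`, modulo
decomposable elements. -/
def IsPolyGen (φ : GHom S p R) (j : ℕ) {d : ℕ} (x : PiR S R d) : Prop :=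
  ∃ (m : ℤ) (w : VPoly p d), ¬ (p : ℤ) ∣ m ∧
    ¬ (p : ℤ) ∣ MvPolynomial.coeff (Finsupp.single j 1) w.pol ∧ φ.val w = zmul m x

/-- the multiplication `R ⊗ S^{2k} ⟶ R` by `x ∈ π_{2k} R` -/
abbrev mulBy {k : ℕ} (x : PiR S R k) : Hom (ten R.obj (Sn S k)) R.obj := comp (tenL R.obj x) R.mul

/-- `q : R ⟶ D` is the quotient of `R` by the elements `x_0, x_1, …` of its homotopy, as a homotopy
`R`-module: `D` is an `R`-module, `q` is `R`-linear and onto on homotopy, and the kernel of `π_* q`
consists of the finite sums of products `b_j x_j`. -/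
inductive IsQuotient {d : ℕ → ℕ} (x : ∀ j, PiR S R (d j)) {D : T.C} (q : Hom R.obj D) : Prop
  | mk (a : ModObj R.obj D) : @IsModHom _ _ _ _ _ _ R.obj _ _ _ (ModObj.regular R.obj) a q →
      (∀ (k : ℤ) (y : Pi k D), ∃ u : Pi k R.obj, y = comp u q) →
      (∀ (k : ℤ) (u : Pi k R.obj), comp u q = nul _ D ↔
        ∃ (N : ℕ) (b : ∀ j, Pi k (ten R.obj (Sn S (d j)))),
          u = hsum N fun j => comp (b j) (mulBy (x j))) → IsQuotient x q

/-- `B` is a standard form of `BP⟨n⟩_p`: the `p`-completion of the quotient of the Brown-Peterson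
spectrum by polynomial generators in the places of `v_{n+1}, v_{n+2}, …`. -/
def IsStandardForm (S : Susp T) (p n : ℕ) (B : T.C) : Prop :=
  ∃ (P : RingSp T) (o : Oriented S P) (φ : GHom S p P) (d : ℕ → ℕ) (x : ∀ j, PiR S P (d j))
    (D : T.C) (q : Hom P.obj D) (c : Hom D B),
    IsBrownPeterson p o φ ∧ (∀ j, IsPolyGen φ (n + j) (x j)) ∧ IsQuotient x q ∧ IsPCompletion p c

/-- The ring spectrum `K` is the Morava `K`-theory `K(j)` at the odd prime `p`: `π_k K = 0` unless
`|v_j| = 2 (p ^ j - 1)` divides `k`; for `j = 0`, `π_0 K = ℚ`, so that `K = Hℚ`; for `j > 0`,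
`π_0 K` has `p` elements and `K` has a `p`-typical complex orientation (that is, a homomorphism of
ring spectra from `BP`) for which the multiplication by `v_j` is an isomorphism, so that
`π_* K = 𝔽_p[v_j, v_j⁻¹]`. -/
def IsK (S : Susp T) (p j : ℕ) (K : RingSp T) : Prop :=
  (∀ k : ℤ, ¬ 2 * ((p : ℤ) ^ j - 1) ∣ k → Subsingleton (Pi k K.obj)) ∧
    if j = 0 then Nonempty (Pi 0 K.obj ≃+ ℚ) else Nat.card (Pi 0 K.obj) = p ∧
      ∃ (o : Oriented S K) (φ : GHom S p K), IsPTyp p o φ ∧
        ∀ (d : ℕ) (w : VPoly p d), w.pol = MvPolynomial.X (j - 1) → IsIso (mulBy (φ.val w))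

/-- `V` is a finite spectrum (it lies in the thick subcategory generated by the sphere spectrum), it
is `p`-local, and it has type `j`: `j` is least with `K(j)_* V ≠ 0`. -/
def HasType (S : Susp T) (p j : ℕ) (V : T.C) : Prop :=
  ObjectProperty.triangEnvelope (fun Y => Y = T.one) V ∧ PLocal p V ∧
    ∀ i ≤ j, ∀ K, IsK S p i K → ((∀ k, Subsingleton (Pi k (ten K.obj V))) ↔ i < j)

/-- `X` is an fp-spectrum of fp-type at most `n`: it is `p`-complete and bounded below, and
`π_* (V ⊗ X)` is finite in total for some finite spectrum `V` of type `n + 1`. -/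
def IsFpType (S : Susp T) (p n : ℕ) (X : T.C) : Prop :=
  PComplete p X ∧ ∃ (V : T.C) (N : ℤ), HasType S p (n + 1) V ∧
    ∀ k : ℤ, (k < -N → Subsingleton (Pi k X)) ∧
      Finite (Pi k (ten V X)) ∧ (N < |k| → Subsingleton (Pi k (ten V X)))

end Vale.Agent.P221EJ
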