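import Vale.Agent.P221EJ.Ty
import Vale.Agent.P221EJ.BP
import Vale.Agent.P221X.Fin.Full

/-!
# The disproof of the Hahn-Wilson conjecture at height two, with types by Morava `K`-theories
-/

open CategoryTheory MonoidalCategory Limits Pretriangulated

noncomputable section

namespace Vale.Agent.P221EJ

open Vale.Agent.P251 Vale.Agent.P251.St Vale.Agent.P221 Vale.Agent.P221X Vale.Agent.P221X.Fin

variable {T : SHCat} {S : Susp T} {p : ℕ}

theorem isStandardForm_iff (n : ℕ) (B : T.C) :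
    IsStandardForm S p n B ↔ StI.IsStandardForm S p n B := by
  rw [← P251CY.isStandardForm_iff]
  constructor
  · rintro ⟨P, o, φ, d, x, D, q, c, h1, h2, ⟨a, h3, h4, h5⟩, h6⟩
    exact ⟨P, o, φ, d, x, D, q, c, h1, h2, ⟨a, h3, h4, h5⟩, h6⟩
  · rintro ⟨P, o, φ, d, x, D, q, c, h1, h2, ⟨a, h3, h4, h5⟩, h6⟩
    exact ⟨P, o, φ, d, x, D, q, c, h1, h2, ⟨a, h3, h4, h5⟩, h6⟩

theorem isFpType_of_out {n : ℕ} {b V X : T.C} (hV : HasType S p (n + 1) V) (h : Out p b V X) :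
    IsFpType S p n X := by
  obtain ⟨k, hk⟩ := h.pow
  obtain ⟨N, hN⟩ := h.bdd
  have e : ∀ l : ℤ, Pi l (X ⊗ V) ≃ Pi l (V ⊗ X) := fun l => Iso.homCongr (Iso.refl _) (β_ X V)
  refine ⟨(P251CY.pComplete_iff p X).2 (pComplete_of_pow hk), V, max N 0, hV, fun l =>
    ⟨fun hl => subsingleton_of_forall_eq 0 (h.conn l ?_), ?_, fun hl => ?_⟩⟩
  · have := le_max_right N 0
    omega
  · exact @Finite.of_equiv _ _ (h.fin l) (e l)
  · exact (e l).subsingleton_congr.1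
      (subsingleton_of_forall_eq 0 (hN l (lt_of_le_of_lt (le_max_left _ _) hl)))

theorem not_hahnWilson (T : SHCat) (S : Susp T) (p : ℕ) (hp : p.Prime) (h5 : 5 ≤ p) :
    (∀ j, ∃ K, IsK S p j K) ∧ (∃ B : T.C, IsStandardForm S p 2 B) ∧
      ∃ X : T.C, IsFpType S p 2 X ∧ ∀ B : T.C, IsStandardForm S p 2 B →
        ¬ ObjectProperty.triangEnvelope (fun Y => Y = B) X := by
  have : Fact p.Prime := ⟨hp⟩
  obtain ⟨P, o, φ, hP⟩ := P257.H702.exists_isBrownPeterson S p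
  obtain ⟨C, a, q, hq⟩ := EXI.Close.rowSTD S h5 P o φ hP
  obtain ⟨D₀, hD, hA, ⟨U⟩⟩ := H924.exists_mu S.toSpaceFunctor (M.lineIso S.toSpaceFunctor)
  obtain ⟨W⟩ := TD.exists_twr D₀ h5
  obtain ⟨F, _, _, _, D, R, _, _, Sr, Rf, AA, _, _, A₀, hF, hX, ⟨E⟩⟩ :=
    TC.rowTOPC h5 D₀ hD hA U W P o φ C a q hP hq
  obtain ⟨A⟩ := RIG.algAll Sr h5 hX
  obtain ⟨X, hO⟩ := rowTOPB p F D R Sr Rf AA A₀ _ W.V2 h5 hF (hasCov T S) W.fin2 A E
  obtain ⟨B₀, c, hB₀, hc⟩ := exists_std hp hP hq W.distM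
  refine ⟨exists_isK S hp (by omega), ⟨B₀, (isStandardForm_iff 2 B₀).2 hB₀⟩, X,
    isFpType_of_out (hasType W U) hO, fun B h1 h2 => hO.not_thick ?_⟩
  obtain ⟨k, hk⟩ := hO.pow
  exact thick_of_completion W.distM c hk ((nm_of_thickOf
    ((P251CY.triangEnvelope_iff B X).1 h2)).trans (thick_std hB₀ ((isStandardForm_iff 2 B).1 h1)))

end Vale.Agent.P221EJ
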