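import Vale.Agent.P221EJ.KEx
import Vale.Agent.P221X.TD.TwrSt

/-!
# The Smith-Toda complex `V(2)` has type three
-/

open CategoryTheory MonoidalCategory Limits Pretriangulated MonObj

set_option linter.unusedSectionVars false

noncomputable section

namespace Vale.Agent.P221EJ

open Vale.Agent.P251 Vale.Agent.P251.I Vale.Agent.P251.T Vale.Agent.P251.M Vale.Agent.P251.St
  Vale.Agent.P251.F Vale.Agent.P257.H702 Vale.Agent.P257.H80 Vale.Agent.P221X.TD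
  Vale.Agent.P257.H314
open Vale.Agent.P251.M.EvenSpheres

variable {T : SHCat} {S : Susp T} {p : ℕ} [hp : Fact p.Prime]

omit hp in
theorem isZero_iff (Y : T.C) : (∀ k, Subsingleton (Pi k Y)) ↔ IsZero Y :=
  ⟨fun h => StableCat.generator Y fun n f => (h n).elim f 0,
    fun h _ => ⟨fun f g => h.eq_of_tgt f g⟩⟩

omit hp in
theorem whisker_smul (K : T.C) (m : ℤ) :
    K ◁ (m • 𝟙 (𝟙_ T.C)) = (ρ_ K).hom ≫ (m • 𝟙 K) ≫ (ρ_ K).inv := by
  have h1 : K ◁ (m • 𝟙 (𝟙_ T.C)) = m • K ◁ 𝟙 (𝟙_ T.C) := (tensorLeft K).map_zsmul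
  rw [h1, Preadditive.zsmul_comp, Preadditive.comp_zsmul]
  simp

omit hp in
theorem isZero_of_isIso {X Y : T.C} {f : X ⟶ Y} (h : IsIso f) (h0 : f = 0) : IsZero Y := by
  rw [IsZero.iff_id_eq_zero, ← IsIso.inv_hom_id f]
  conv_lhs => enter [2]; rw [h0]
  exact comp_zero

section step

variable {K V : T.C} [MonObj K] {j : ℕ} {f : Sv T.C p j ⊗ V ⟶ V}
  {w : S.obj (St.Cn (p ^ j - 1)) ⟶ K}
  (h : stMap S j f ≫ (λ_ V).inv ≫ η[K] ▷ V = w ▷ V)

include h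

theorem isIso_iff_mul : IsIso (K ◁ f) ↔ IsIso ((K ◁ w ≫ μ[K]) ▷ V) := by
  have h1 := whiskerLeft_self h
  rw [stMap, MonoidalCategory.whiskerLeft_comp] at h1
  rw [← isIso_comp_left_iff (K ◁ (spI S hp.out.one_le j).hom ▷ V), h1, isIso_comp_left_iff]

theorem isIso_step (hw : IsIso (K ◁ w ≫ μ[K])) : IsIso (K ◁ f) :=
  (isIso_iff_mul h).2 inferInstance

theorem isZero_step (hw : w = 0) (hf : IsIso (K ◁ f)) : IsZero (K ⊗ V) :=
  isZero_of_isIso ((isIso_iff_mul h).1 hf) (by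
    rw [hw, MonoidalPreadditive.whiskerLeft_zero, zero_comp, MonoidalPreadditive.zero_whiskerRight])

end step

variable {D : MUData T.C} (W : Twr D p)

theorem zero_K0 {K : P251CY.RingSp T} (h : IsK S p 0 K) : IsZero (K.obj ⊗ W.M) := by
  obtain ⟨e⟩ : Nonempty (Pi 0 K.obj ≃+ ℚ) := by
    have h2 := h.2
    rwa [if_pos rfl] at h2
  let e' := (piZero K.obj).symm.trans e
  have h0 : (p : ℚ) ≠ 0 := by exact_mod_cast hp.out.ne_zero
  have h1 : (p : ℤ) • e'.symm (e' η[K.obj] / p) = η[K.obj] := by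
    rw [← map_zsmul, zsmul_eq_mul, Int.cast_natCast, mul_div_cancel₀ _ h0, e'.symm_apply_apply]
  have h2 : (p : ℤ) • ((ρ_ K.obj).inv ≫ K.obj ◁ e'.symm (e' η[K.obj] / p) ≫ μ[K.obj]) =
      𝟙 K.obj := by
    have h3 : K.obj ◁ ((p : ℤ) • e'.symm (e' η[K.obj] / p)) =
        (p : ℤ) • K.obj ◁ e'.symm (e' η[K.obj] / p) := (tensorLeft K.obj).map_zsmul
    rw [← Preadditive.comp_zsmul, ← Preadditive.zsmul_comp, ← h3, h1, MonObj.mul_one,
      Iso.inv_hom_id]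
  have h4 : IsIso ((p : ℤ) • 𝟙 K.obj) :=
    ⟨_, by rw [Preadditive.zsmul_comp, Category.id_comp, h2],
      by rw [Preadditive.comp_zsmul, Category.comp_id, h2]⟩
  rw [W.zeroM_iff, whisker_smul]
  infer_instance

theorem ne_M {K : P251CY.RingSp T} (h : Nat.card (Pi 0 K.obj) = p) : ¬ IsZero (K.obj ⊗ W.M) := by
  intro hz
  have h1 : Nat.card (𝟙_ T.C ⟶ K.obj) = p := (Nat.card_congr (piZero K.obj).toEquiv).symm.trans h
  have h2 : (p : ℤ) • η[K.obj] = 0 := by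
    rw [natCast_zsmul, ← h1]
    exact card_nsmul_eq_zero'
  have h3 := isZero_of_isIso ((W.zeroM_iff _).1 hz) (by
    rw [whisker_smul, smul_id, h2, MonoidalPreadditive.whiskerLeft_zero]
    simp)
  have h4 := (isZero_iff _).2 (h3.of_iso (ρ_ K.obj).symm) 0
  rw [Nat.card_of_subsingleton (0 : Pi 0 K.obj)] at h
  exact hp.out.one_lt.ne h

theorem eq_zero_of_lt {K : P251CY.RingSp T} {i l : ℕ} (h : IsK S p i K) (h0 : 0 < l) (hl : l < i)
    (w : S.obj (St.Cn (p ^ l - 1)) ⟶ K.obj) : w = 0 := by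
  have h1 : 1 < p ^ l := Nat.one_lt_pow h0.ne' hp.out.one_lt
  have h2 : p ^ l < p ^ i := Nat.pow_lt_pow_right hp.out.one_lt hl
  have h3 := h.1 (2 * ((p ^ l - 1 : ℕ) : ℤ)) fun hd => by
    have h4 := Int.le_of_dvd (by omega) hd
    have h5 : ((p ^ i : ℕ) : ℤ) = (p : ℤ) ^ i := Nat.cast_pow _ _
    omega
  rw [← cancel_epi (isoE S _).inv, ← cancel_epi ((stdEven T.C).sphIso (Iso.refl _) _).inv]
  exact h3.elim _ _

omit hp in
theorem tors2 : ((p : ℤ) ^ 2) • 𝟙 W.V2 = 0 := by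
  have h1 : (p : ℤ) • W.iM = 0 := by
    have : ((p : ℤ) • 𝟙 (𝟙_ T.C)) ≫ W.iM = 0 := comp_distTriang_mor_zero₁₂ _ W.distM
    simpa using this
  have h2 : (p : ℤ) • 𝟙 W.V1 = 0 := by
    have h3 : ((p : ℤ) • (W.iM ≫ W.j1)) ▷ W.V1 = (p : ℤ) • (W.iM ≫ W.j1) ▷ W.V1 :=
      (tensorRight W.V1).map_zsmul
    rw [← Preadditive.zsmul_comp, h1, zero_comp, MonoidalPreadditive.zero_whiskerRight] at h3
    rw [← (λ_ W.V1).inv_hom_id, ← W.m2.left_unit, ← Preadditive.comp_zsmul,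
      ← Preadditive.zsmul_comp, ← h3, zero_comp, comp_zero]
  have h4 : (p : ℤ) • 𝟙 ((Sv T.C p 2 ⊗ W.V1)⟦(1 : ℤ)⟧) = 0 := by
    have h5 : (tensorLeft (Sv T.C p 2) ⋙ shiftFunctor T.C (1 : ℤ)).map ((p : ℤ) • 𝟙 W.V1) =
        (p : ℤ) • (tensorLeft (Sv T.C p 2) ⋙ shiftFunctor T.C (1 : ℤ)).map (𝟙 W.V1) :=
      Functor.map_zsmul _
    rw [h2, Functor.map_zero, CategoryTheory.Functor.map_id] at h5
    exact h5.symm
  obtain ⟨t, ht'⟩ : ∃ t : (Sv T.C p 2 ⊗ W.V1)⟦(1 : ℤ)⟧ ⟶ W.V2, (p : ℤ) • 𝟙 W.V2 = W.δ2 ≫ t :=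
    Triangle.yoneda_exact₃ _ W.dist2 ((p : ℤ) • 𝟙 W.V2) (by
      change W.j2 ≫ ((p : ℤ) • 𝟙 W.V2) = 0
      rw [Preadditive.comp_zsmul, Category.comp_id, ← Category.id_comp W.j2,
        ← Preadditive.zsmul_comp, h2, zero_comp])
  rw [pow_two, mul_smul, ht', ← Category.id_comp t, ← Preadditive.comp_zsmul,
    ← Preadditive.zsmul_comp, h4, zero_comp, comp_zero]

omit hp in
theorem thickOf_of_nm {B X : T.C} (h : P221X.NM.Thick B X) :
    P221.StI.ThickOf (fun Y => Y = B) X := by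
  induction h with
  | base => exact .base rfl
  | zero h => exact .zero h
  | susp k _ ih => exact .susp k ih
  | cof hd _ _ h1 h2 => exact .cof hd h1 h2
  | retract i r hir _ ih => exact .retract i r hir ih

/-- **`V(2)` has type three.** -/
theorem hasType (U : MUFam (M.lineIso S.toSpaceFunctor) D) : HasType S p 3 W.V2 := by
  refine ⟨(P251CY.triangEnvelope_iff _ _).2 (thickOf_of_nm W.fin2),
    isIso_of_pow hp.out (tors2 W), fun i hi K hK => (isZero_iff _).trans ?_⟩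
  rcases i with _ | i
  · exact iff_of_true (W.zero2_of_zero1 (W.zero1_of_zeroM (zero_K0 W hK))) (by omega)
  have h2 := hK.2
  rw [if_neg i.succ_ne_zero] at h2
  obtain ⟨hc, o, φ, ho, hv⟩ := h2
  obtain ⟨h3, h4⟩ := W.hur_st U ((P251CY.isPTyp_iff _ _).1 ho)
  have hv' := hv _ ⟨_, P257.St.vEl_mem p (i + 1)⟩ rfl
  obtain rfl | rfl | rfl : i = 0 ∨ i = 1 ∨ i = 2 := by omega
  · exact iff_of_true (W.zero2_of_zero1 ((W.zero1_iff _).2 (isIso_step h3 hv'))) (by omega)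
  · exact iff_of_true ((W.zero2_iff _).2 (isIso_step h4 hv')) (by omega)
  · refine iff_of_false (fun hz => ne_M W hc ?_) (by omega)
    exact isZero_step h3 (eq_zero_of_lt hK (by omega) (by omega) _) ((W.zero1_iff _).1
      (isZero_step h4 (eq_zero_of_lt hK (by omega) (by omega) _) ((W.zero2_iff _).1 hz)))

end Vale.Agent.P221EJ
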